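import Crest.Agent.N250.MP.Avoid

/-!
# Row 250 (helper56): static barrier on a slice (S5) and first order extension (S6)
-/

set_option autoImplicit false
open MeasureTheory Set Filter Topology
open scoped ContDiff InnerProductSpace
open Crest.GeometryTopology.MCF

noncomputable section

namespace Crest.Agent.N250.S5

open MP

variable {F : Mv} {p : ST}

/-- the closed annulus in a slice -/
def ann (F : Mv) (t a b : ℝ) : Set E := {x | x ∈ F.sl t ∧ a ≤ ‖x‖ ∧ ‖x‖ ≤ b}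

/-- `⟨x, ∇ f⟩` -/
def xD (F : Mv) (f : ST → ℝ) (p : ST) : ℝ := ∑ a, p.1 a * F.D a f p

/-- `exp (γ |x|²)` -/
def W (γ : ℝ) (p : ST) : ℝ := Real.exp (γ * ‖p.1‖ ^ 2)

theorem W_pos (γ : ℝ) (p : ST) : 0 < W γ p := Real.exp_pos _

theorem W_sm (γ : ℝ) : ContDiff ℝ 2 (W γ) :=
  (contDiff_const.mul (contDiff_fst.norm_sq ℝ)).exp

/-- the bilinear form `⟨v.1, w.1⟩` -/
def BB : ST →L[ℝ] ST →L[ℝ] ℝ :=
  (innerSL ℝ (E := E)).bilinearComp (ContinuousLinearMap.fst ℝ E ℝ) (ContinuousLinearMap.fst ℝ E ℝ)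

theorem BB_apply (v w : ST) : BB v w = ⟪v.1, w.1⟫_ℝ := rfl

theorem W_fd (γ : ℝ) (q : ST) : HasFDerivAt (W γ) ((2 * γ * W γ q) • BB q) q := by
  have := ((hasFDerivAt_fst (𝕜 := ℝ) (p := q)).norm_sq.const_mul γ).exp
  refine this.congr_fderiv (ContinuousLinearMap.ext fun v => ?_)
  simp [BB_apply, W]
  ring

theorem W_fd2 (γ : ℝ) (q v : ST) : fderiv ℝ (fderiv ℝ (W γ)) q v v =
    W γ q * (2 * γ * ⟪v.1, v.1⟫_ℝ + 4 * γ ^ 2 * ⟪q.1, v.1⟫_ℝ ^ 2) := by
  have h2 : fderiv ℝ (W γ) = fun q => (2 * γ * W γ q) • BB q := funext fun q => (W_fd γ q).fderiv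
  have h3 := ((W_fd γ q).const_mul (2 * γ)).smul (BB.hasFDerivAt (x := q))
  rw [h2]
  erw [h3.fderiv]
  simp [BB_apply]
  ring

theorem D_W (hF : F.Reg) (hp : p ∈ F.M) (γ : ℝ) (a : Fin 3) :
    F.D a (W γ) p = 2 * γ * W γ p * F.PL p p.1 a := by
  rw [D_eq hF hp (W_fd γ p).differentiableAt EventuallyEq.rfl, (W_fd γ p).fderiv]
  simp only [smul_apply, BB_apply, smul_eq_mul, Mv.PL, inner_sub_right,
    inner_smul_right, EuclideanSpace.inner_single_right, PiLp.sub_apply, PiLp.smul_apply,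
    conj_trivial, real_inner_comm p.1 (F.n p)]
  ring

theorem inner_sum3 (v w : E) : ⟪v, w⟫_ℝ = ∑ a, v a * w a := by
  rw [PiLp.inner_apply]; simp [mul_comm]

theorem sum_xPL (F : Mv) (p : ST) :
    ∑ a, p.1 a * F.PL p p.1 a = ‖p.1‖ ^ 2 - F.xn 0 p ^ 2 := by
  rw [← inner_sum3, Mv.PL, inner_sub_right, inner_smul_right, real_inner_self_eq_norm_sq, Mv.xn,
    sub_zero, real_inner_comm]
  ring

theorem sum_PLPL (hF : F.Reg) (hp : p ∈ F.M) :
    ∑ a, F.PL p p.1 a * F.PL p p.1 a = ‖p.1‖ ^ 2 - F.xn 0 p ^ 2 := by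
  rw [← inner_sum3, ← sum_xPL F p, ← inner_sum3]
  nth_rewrite 1 [Mv.PL]
  rw [inner_sub_left, inner_smul_left, inner_PL hF hp]
  simp

theorem inner_PLe (p : ST) (v : E) (a : Fin 3) : ⟪v, F.PL p (ee a)⟫_ℝ = F.PL p v a := by
  simp only [Mv.PL, inner_sub_right, inner_smul_right, EuclideanSpace.inner_single_right,
    PiLp.sub_apply, PiLp.smul_apply, conj_trivial, real_inner_comm v (F.n p), smul_eq_mul]
  ring

theorem lap_W (hF : F.Reg) (hp : p ∈ F.M) (γ : ℝ) : F.lap (W γ) p =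
    W γ p * (4 * γ + 4 * γ ^ 2 * (‖p.1‖ ^ 2 - F.xn 0 p ^ 2) - 2 * γ * (F.H p * F.xn 0 p)) := by
  rw [lap_amb hF hp (W_sm γ).contDiffAt EventuallyEq.rfl, (W_fd γ p).fderiv]
  simp only [W_fd2, ← Finset.mul_sum, Finset.sum_add_distrib, sum_PL_sq hF hp]
  simp only [inner_PLe, sq, sum_PLPL hF hp, smul_apply, BB_apply, smul_eq_mul, Mv.xn, sub_zero]
  ring

theorem xD_W (hF : F.Reg) (hp : p ∈ F.M) (γ : ℝ) :
    xD F (W γ) p = 2 * γ * W γ p * (‖p.1‖ ^ 2 - F.xn 0 p ^ 2) := by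
  simp only [xD, D_W hF hp]
  rw [← sum_xPL F p, Finset.mul_sum]
  exact Finset.sum_congr rfl fun a _ => by ring

/-- linearity of `D` and `lap` for functions which are only `C²` at the point -/
theorem lin (hF : F.Reg) (hp : p ∈ F.M) {f g : ST → ℝ} (hf : ContDiffWithinAt ℝ 2 f F.M p)
    (hg : ContDiffWithinAt ℝ 2 g F.M p) (r s : ℝ) :
    (∀ a, F.D a (fun q => r * f q + s * g q) p = r * F.D a f p + s * F.D a g p) ∧
      F.lap (fun q => r * f q + s * g q) p = r * F.lap f p + s * F.lap g p := by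
  obtain ⟨f', hf', ef⟩ := exists_ext hF hp (m := 2) hf
  obtain ⟨g', hg', eg⟩ := exists_ext hF hp (m := 2) hg
  have hk : ContDiffAt ℝ 2 (fun q => r * f' q + s * g' q) p :=
    (contDiffAt_const.mul hf').add (contDiffAt_const.mul hg')
  have ek : (fun q => r * f q + s * g q) =ᶠ[𝓝[F.M] p] fun q => r * f' q + s * g' q := by
    filter_upwards [ef, eg] with q h1 h2 using by rw [h1, h2]
  have e1 : fderiv ℝ (fun q => r * f' q + s * g' q) =ᶠ[𝓝 p]
      fun q => r • fderiv ℝ f' q + s • fderiv ℝ g' q := by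
    filter_upwards [hf'.eventually (by simp), hg'.eventually (by simp)] with q h1 h2
    exact (((h1.differentiableAt (by simp)).hasFDerivAt.const_mul r).add
      ((h2.differentiableAt (by simp)).hasFDerivAt.const_mul s)).fderiv
  have d1 := ((hf'.fderiv_right (m := 1) (by norm_num)).differentiableAt (by simp)).hasFDerivAt
  have d2 := ((hg'.fderiv_right (m := 1) (by norm_num)).differentiableAt (by simp)).hasFDerivAt
  have e2 : fderiv ℝ (fderiv ℝ (fun q => r * f' q + s * g' q)) p =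
      r • fderiv ℝ (fderiv ℝ f') p + s • fderiv ℝ (fderiv ℝ g') p := by
    rw [e1.fderiv_eq]
    exact ((d1.const_smul r).add (d2.const_smul s)).fderiv
  refine ⟨fun a => ?_, ?_⟩
  · rw [D_eq hF hp (hk.differentiableAt (by simp)) ek, D_eq hF hp (hf'.differentiableAt (by simp)) ef,
      D_eq hF hp (hg'.differentiableAt (by simp)) eg, e1.self_of_nhds]
    simp
  · rw [lap_amb hF hp hk ek, lap_amb hF hp hf' ef, lap_amb hF hp hg' eg, e2, e1.self_of_nhds]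
    simp only [add_apply, smul_apply, smul_eq_mul,
      Finset.sum_add_distrib, ← Finset.mul_sum]
    ring

/-- a maximum over the annulus at a point of the open annulus is a local maximum in the slice -/
theorem loc_max {t a b : ℝ} {x : E} {f : ST → ℝ} (h1 : a < ‖x‖) (h2 : ‖x‖ < b)
    (hm : ∀ y ∈ ann F t a b, f (y, t) ≤ f (x, t)) :
    IsLocalMaxOn f (F.M ∩ {q | q.2 = ((x, t) : ST).2}) (x, t) := by
  have ho : {q : ST | a < ‖q.1‖ ∧ ‖q.1‖ < b} ∈ 𝓝 ((x, t) : ST) :=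
    ((isOpen_lt continuous_const continuous_fst.norm).inter
      (isOpen_lt continuous_fst.norm continuous_const)).mem_nhds ⟨h1, h2⟩
  filter_upwards [nhdsWithin_le_nhds ho, self_mem_nhdsWithin] with q hq hq'
  obtain ⟨y, s⟩ := q
  obtain ⟨hM, rfl⟩ : (y, s) ∈ F.M ∧ s = t := hq'
  exact hm y ⟨hM, hq.1.le, hq.2.le⟩

theorem cont_ann {t a b : ℝ} {f : ST → ℝ}
    (hf : ∀ x ∈ ann F t a b, ContinuousWithinAt f F.M (x, t)) :
    ContinuousOn (fun x => f (x, t)) (ann F t a b) := fun x hx =>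
  (hf x hx).comp (f := fun x : E => ((x, t) : ST)) (by fun_prop) fun _ hy => hy.1

theorem arith {K γ ρ s w B H X T g l : ℝ} (hK : 0 ≤ K) (hγ : 0 < γ) (hγ' : γ ≤ 1 / 5)
    (hr : 20 * K + 20 + (10 * K + 10) / γ ≤ ρ) (hs0 : 0 < s) (hw1 : 1 ≤ w) (hBs : B ≤ s)
    (h2 : |H| ≤ K) (h3 : |X| ≤ K) (hT : T = ρ ^ 2 - X ^ 2) (eg : g = (s * (2 * γ * w)) ^ 2 * T)
    (h4 : g ≤ 1) (h5 : -(K * (s * w + g) + B) ≤ l - s * (2 * γ * w * T) / 2)
    (m2 : 1 * l + -s * (w * (4 * γ + 4 * γ ^ 2 * T - 2 * γ * (H * X))) ≤ 0) : False := by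
  have hq : 0 ≤ (10 * K + 10) / γ := by positivity
  have hxn : X ^ 2 ≤ K ^ 2 := by
    rw [← sq_abs]; exact pow_le_pow_left₀ (abs_nonneg _) h3 2
  have hHx : -(K ^ 2) ≤ H * X := by
    have : |H * X| ≤ K * K := by
      rw [abs_mul]; exact mul_le_mul h2 h3 (abs_nonneg _) hK
    have := (abs_le.1 this).1
    linarith [sq K]
  have hTle : T ≤ ρ ^ 2 := by linarith [sq_nonneg X]
  have k7 : 20 * K + 20 ≤ ρ := by linarith
  have hρ : 0 ≤ ρ := by linarith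
  obtain ⟨u, hu⟩ : ∃ u, u = s * w := ⟨_, rfl⟩
  have hu0 : 0 < u := by rw [hu]; positivity
  have hg : g ≤ 2 * γ * u * ρ := by
    have e1 : g ≤ (2 * γ * u * ρ) ^ 2 := by
      have : (s * (2 * γ * w)) ^ 2 * T ≤ (s * (2 * γ * w)) ^ 2 * ρ ^ 2 := by gcongr
      rw [eg, hu]
      exact this.trans_eq (by ring)
    have h0 : 0 ≤ 2 * γ * u * ρ := by positivity
    rcases le_total (2 * γ * u * ρ) 1 with h | h
    · exact e1.trans (by rw [sq]; exact mul_le_of_le_one_left h0 h)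
    · exact h4.trans h
  have hBu : B ≤ u := hBs.trans (by rw [hu]; exact le_mul_of_one_le_right hs0.le hw1)
  have k1 : K * g ≤ K * (2 * γ * u * ρ) := by gcongr
  have k3 : -(K + K * (2 * γ * ρ) + 1) ≤ 4 * γ + 4 * γ ^ 2 * T - 2 * γ * (H * X) - γ * T := by
    refine le_of_mul_le_mul_left ?_ hu0
    have a1 : s * (2 * γ * w * T) / 2 = u * (γ * T) := by rw [hu]; ring
    have a2 : -s * (w * (4 * γ + 4 * γ ^ 2 * T - 2 * γ * (H * X))) =
        -(u * (4 * γ + 4 * γ ^ 2 * T - 2 * γ * (H * X))) := by rw [hu]; ring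
    rw [a1, ← hu] at h5
    rw [a2] at m2
    linarith
  have hT0 : ρ ^ 2 - K ^ 2 ≤ T := by linarith
  have hTp : 0 ≤ T := by
    have : K ^ 2 ≤ ρ ^ 2 := pow_le_pow_left₀ hK (by linarith) 2
    linarith
  have k4 : 4 * γ * (γ * T) ≤ 4 / 5 * (γ * T) := by gcongr; linarith
  have k4' : γ * (ρ ^ 2 - K ^ 2) ≤ γ * T := by gcongr
  have k4'' : γ * -(K ^ 2) ≤ γ * (H * X) := by gcongr
  have k6 : 10 * K + 10 ≤ γ * ρ := by
    have : (10 * K + 10) / γ ≤ ρ := by linarith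
    rw [div_le_iff₀ hγ] at this
    linarith
  have k8 : γ * (ρ * (20 * K + 20)) ≤ γ * (ρ * ρ) := by gcongr
  have k9 : (10 * K + 10) * 20 ≤ γ * ρ * ρ := by
    have : (20 : ℝ) ≤ ρ := by linarith
    calc (10 * K + 10) * 20 ≤ (γ * ρ) * 20 := by gcongr
      _ ≤ _ := by gcongr
  have k10 : γ * (K * (20 * K + 20)) ≤ γ * (K * ρ) := by gcongr
  have k11 : γ * 20 ≤ γ * ρ := by gcongr; linarith
  have k12 := mul_nonneg hγ.le hK
  have k13 := mul_nonneg k12 hρ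
  linarith

theorem bar_one {K γ : ℝ} (hK : 0 ≤ K) (hγ : 0 < γ) (hγ' : γ ≤ 1 / 5) : ∃ R, 0 < R ∧
    ∀ (F : Mv) (t a b B : ℝ) (f : ST → ℝ), F.Reg → R ≤ a → IsCompact (ann F t a b) →
    (∀ x ∈ ann F t a b, ContDiffWithinAt ℝ 2 f F.M (x, t) ∧ |F.H (x, t)| ≤ K ∧
      |F.xn 0 (x, t)| ≤ K ∧ F.gam f f (x, t) ≤ 1 ∧
      -(K * (|f (x, t)| + F.gam f f (x, t)) + B) ≤ F.lap f (x, t) - xD F f (x, t) / 2) →
    0 ≤ B → (∀ x ∈ ann F t a b, ‖x‖ = a ∨ ‖x‖ = b → f (x, t) ≤ B * W γ (x, t)) →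
    ∀ x ∈ ann F t a b, f (x, t) ≤ B * W γ (x, t) := by
  refine ⟨20 * K + 20 + (10 * K + 10) / γ, by positivity, ?_⟩
  intro F t a b B f hF hR hc h hB hb x hx
  by_contra hcon
  have hcg : ContinuousOn (fun x => f (x, t) / W γ (x, t)) (ann F t a b) :=
    (cont_ann fun y hy => (h y hy).1.continuousWithinAt).div
      (((W_sm γ).continuous.comp (by fun_prop)).continuousOn) fun y _ => (W_pos _ _).ne'
  obtain ⟨y, hy, hm⟩ := hc.exists_isMaxOn ⟨x, hx⟩ hcg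
  set s := f (y, t) / W γ (y, t) with hs
  have hBs : B < s := by
    have h1 : f (x, t) / W γ (x, t) ≤ s := hm hx
    have h2 : B < f (x, t) / W γ (x, t) := by rw [lt_div_iff₀ (W_pos _ _)]; exact not_le.1 hcon
    linarith
  have hfy : f (y, t) = s * W γ (y, t) := by rw [hs, div_mul_cancel₀ _ (W_pos _ _).ne']
  have hWy := W_pos γ (y, t)
  have hni : ¬(‖y‖ = a ∨ ‖y‖ = b) := fun h' => by
    have := hb y hy h'
    nlinarith
  rw [not_or] at hni
  obtain ⟨h1, h2, h3, h4, h5⟩ := h y hy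
  have hW2 : ContDiffWithinAt ℝ 2 (W γ) F.M (y, t) := (W_sm γ).contDiffAt.contDiffWithinAt
  have hloc : IsLocalMaxOn (fun q => 1 * f q + -s * W γ q) (F.M ∩ {q | q.2 = ((y, t) : ST).2})
      (y, t) := by
    refine loc_max (lt_of_le_of_ne hy.2.1 (Ne.symm hni.1)) (lt_of_le_of_ne hy.2.2 hni.2)
      fun z hz => ?_
    have : f (z, t) / W γ (z, t) ≤ s := hm hz
    rw [div_le_iff₀ (W_pos _ _)] at this
    linarith
  have hsm : ContDiffWithinAt ℝ 2 (fun q => 1 * f q + -s * W γ q) F.M (y, t) :=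
    (contDiffWithinAt_const.mul h1).add (contDiffWithinAt_const.mul hW2)
  obtain ⟨l1, l2⟩ := lin hF hy.1 h1 hW2 1 (-s)
  have m1 := (max_slice hF hy.1 hsm hloc).1
  have m2 := max_lap hF hy.1 hsm hloc
  have eD : ∀ c, F.D c f (y, t) = s * (2 * γ * W γ (y, t) * F.PL (y, t) y c) := fun c => by
    have := m1 c
    rw [l1 c, D_W hF hy.1] at this
    linarith
  set w := W γ (y, t)
  set T := ‖y‖ ^ 2 - F.xn 0 (y, t) ^ 2 with hT
  have ex : xD F f (y, t) = s * (2 * γ * w * T) := by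
    simp only [xD, eD]
    rw [hT, ← sum_xPL F (y, t), Finset.mul_sum, Finset.mul_sum]
    exact Finset.sum_congr rfl fun c _ => by ring
  have eg : F.gam f f (y, t) = (s * (2 * γ * w)) ^ 2 * T := by
    change (∑ c, F.D c f * F.D c f) (y, t) = _
    simp only [Finset.sum_apply, Pi.mul_apply, eD]
    rw [hT, ← sum_PLPL hF (p := (y, t)) hy.1, Finset.mul_sum]
    exact Finset.sum_congr rfl fun c _ => by ring
  rw [l2, lap_W hF hy.1] at m2
  have hs0 : 0 < s := hB.trans_lt hBs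
  have hw1 : 1 ≤ w := Real.one_le_exp (by positivity)
  rw [hfy, abs_of_pos (mul_pos hs0 hWy), ex] at h5
  exact arith hK hγ hγ' (hR.trans hy.2.1) hs0 hw1 hBs.le h2 h3 hT eg h4 h5 m2

/-- **S5**: the static barrier `B exp (γ |x|²)` -/
theorem bar {K γ : ℝ} (hK : 0 ≤ K) (hγ : 0 < γ) (hγ' : γ ≤ 1 / 5) : ∃ R, 0 < R ∧
    ∀ (F : Mv) (t a b B : ℝ) (f : ST → ℝ), F.Reg → R ≤ a → IsCompact (ann F t a b) →
    (∀ x ∈ ann F t a b, ContDiffWithinAt ℝ 2 f F.M (x, t) ∧ |F.H (x, t)| ≤ K ∧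
      |F.xn 0 (x, t)| ≤ K ∧ F.gam f f (x, t) ≤ 1 ∧
      |F.lap f (x, t) - xD F f (x, t) / 2| ≤ K * (|f (x, t)| + F.gam f f (x, t)) + B) →
    0 ≤ B → (∀ x ∈ ann F t a b, ‖x‖ = a ∨ ‖x‖ = b → |f (x, t)| ≤ B * Real.exp (γ * ‖x‖ ^ 2)) →
    ∀ x ∈ ann F t a b, |f (x, t)| ≤ B * Real.exp (γ * ‖x‖ ^ 2) := by
  obtain ⟨R, hR, h⟩ := bar_one hK hγ hγ'
  refine ⟨R, hR, fun F t a b B f hF ha hc hh hB hb x hx => abs_le.2 ⟨?_, ?_⟩⟩
  · have := h F t a b B (fun q => -1 * f q + 0 * f q) hF ha hc (fun y hy => ?_) hB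
      (fun y hy h' => ?_) x hx
    · simp only [W] at this; linarith
    · obtain ⟨h1, h2, h3, h4, h5⟩ := hh y hy
      obtain ⟨l1, l2⟩ := lin hF hy.1 h1 h1 (-1) 0
      have eg : F.gam (fun q => -1 * f q + 0 * f q) (fun q => -1 * f q + 0 * f q) (y, t) =
          F.gam f f (y, t) := by
        change (∑ c, F.D c _ * F.D c _) (y, t) = (∑ c, F.D c f * F.D c f) (y, t)
        simp only [Finset.sum_apply, Pi.mul_apply, l1]
        exact Finset.sum_congr rfl fun c _ => by ring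
      have ex : xD F (fun q => -1 * f q + 0 * f q) (y, t) = -xD F f (y, t) := by
        simp only [xD, l1, ← Finset.sum_neg_distrib]
        exact Finset.sum_congr rfl fun c _ => by ring
      refine ⟨(contDiffWithinAt_const.mul h1).add (contDiffWithinAt_const.mul h1), h2, h3,
        eg ▸ h4, ?_⟩
      rw [eg, ex, l2, show -1 * f (y, t) + 0 * f (y, t) = -f (y, t) by ring, abs_neg]
      linarith [(abs_le.1 h5).2]
    · simp only [W]; linarith [(abs_le.1 (hb y hy h')).1]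
  · exact h F t a b B f hF ha hc (fun y hy => ⟨(hh y hy).1, (hh y hy).2.1, (hh y hy).2.2.1,
      (hh y hy).2.2.2.1, (abs_le.1 (hh y hy).2.2.2.2).1⟩) hB
      (fun y hy h' => (le_abs_self _).trans (hb y hy h')) x hx

/-- **S6**, abstract form: a bounded function with bounded radial derivative grows by at most `ε`
from the sphere of radius `r - 1` to the sphere of radius `r + 1` -/
theorem ext {K ε : ℝ} (hK : 0 ≤ K) (hε : 0 < ε) : ∃ R, 1 < R ∧
    ∀ (F : Mv) (t r β : ℝ) (g : ST → ℝ), F.Reg → R ≤ r → IsCompact (ann F t (r - 1) (r + 2)) →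
    (∀ x ∈ ann F t (r - 1) (r + 2), ContDiffWithinAt ℝ 2 g F.M (x, t) ∧ g (x, t) ≤ K ∧
      |F.xn 0 (x, t)| ≤ K ∧ xD F g (x, t) ≤ K) →
    0 ≤ β → (∀ x ∈ F.sl t, ‖x‖ = r - 1 → g (x, t) ≤ β) →
    ∀ x ∈ ann F t (r - 1) (r + 1), g (x, t) ≤ β + ε := by
  set L := K / ε + 1 with hL
  have hL0 : 0 < L := by positivity
  refine ⟨2 * K + 4 + 8 * (K + 1) * Real.exp (4 * L) / (ε * L), by
    have : 0 ≤ 8 * (K + 1) * Real.exp (4 * L) / (ε * L) := by positivity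
    linarith, ?_⟩
  intro F t r β g hF hR hc h hβ hb x hx
  have hq : 0 ≤ 8 * (K + 1) * Real.exp (4 * L) / (ε * L) := by positivity
  have hr : 4 ≤ r := by linarith
  set γ := L / r with hγ
  have hγ0 : 0 < γ := by positivity
  have hγr : γ * r = L := by rw [hγ]; field_simp
  set s := ε * Real.exp (-(γ * (r + 1) ^ 2)) with hs
  have hs0 : 0 < s := by positivity
  have sW : ∀ y : E, s * W γ (y, t) = ε * Real.exp (γ * (‖y‖ ^ 2 - (r + 1) ^ 2)) := fun y => by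
    rw [hs, W, mul_assoc, ← Real.exp_add]; congr 2; ring
  have hx' : x ∈ ann F t (r - 1) (r + 2) := ⟨hx.1, hx.2.1, hx.2.2.trans (by linarith)⟩
  have hcg : ContinuousOn (fun x => 1 * g (x, t) + -s * W γ (x, t)) (ann F t (r - 1) (r + 2)) :=
    (continuousOn_const.mul (cont_ann fun y hy => (h y hy).1.continuousWithinAt)).add
      (continuousOn_const.mul ((W_sm γ).continuous.comp (by fun_prop)).continuousOn)
  obtain ⟨y, hy, hm⟩ := hc.exists_isMaxOn ⟨x, hx'⟩ hcg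
  have hxy : 1 * g (x, t) + -s * W γ (x, t) ≤ 1 * g (y, t) + -s * W γ (y, t) := hm hx'
  have hxe : s * W γ (x, t) ≤ ε := by
    rw [sW]
    have : ‖x‖ ^ 2 ≤ (r + 1) ^ 2 := pow_le_pow_left₀ (norm_nonneg _) hx.2.2 2
    have : Real.exp (γ * (‖x‖ ^ 2 - (r + 1) ^ 2)) ≤ 1 :=
      Real.exp_le_one_iff.2 (mul_nonpos_of_nonneg_of_nonpos hγ0.le (by linarith))
    nlinarith
  have hWy : 0 < s * W γ (y, t) := mul_pos hs0 (W_pos _ _)
  obtain ⟨h1, h2, h3, h4⟩ := h y hy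
  suffices 1 * g (y, t) + -s * W γ (y, t) ≤ β by linarith
  rcases eq_or_lt_of_le hy.2.1 with e | e1
  · linarith [hb y hy.1 e.symm]
  rcases eq_or_lt_of_le hy.2.2 with e | e2
  · have : K ≤ s * W γ (y, t) := by
      rw [sW, e]
      have k1 : L ≤ γ * ((r + 2) ^ 2 - (r + 1) ^ 2) := by nlinarith
      have k2 := Real.add_one_le_exp (γ * ((r + 2) ^ 2 - (r + 1) ^ 2))
      have k3 : ε * (K / ε) = K := by field_simp
      nlinarith
    linarith
  exfalso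
  have hW2 : ContDiffWithinAt ℝ 2 (W γ) F.M (y, t) := (W_sm γ).contDiffAt.contDiffWithinAt
  have hloc := loc_max (f := fun q => 1 * g q + -s * W γ q) e1 e2 fun z hz => hm hz
  have m1 := (max_slice hF hy.1
    ((contDiffWithinAt_const.mul h1).add (contDiffWithinAt_const.mul hW2)) hloc).1
  have l1 := (lin hF hy.1 h1 hW2 1 (-s)).1
  have ex : xD F g (y, t) = s * xD F (W γ) (y, t) := by
    simp only [xD, Finset.mul_sum]
    refine Finset.sum_congr rfl fun c _ => ?_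
    have := m1 c
    rw [l1 c] at this
    rw [show F.D c g (y, t) = s * F.D c (W γ) (y, t) by linarith]; ring
  rw [ex, xD_W hF hy.1] at h4
  have hxn : F.xn 0 (y, t) ^ 2 ≤ K ^ 2 := by
    rw [← sq_abs]; exact pow_le_pow_left₀ (abs_nonneg _) h3 2
  have hy2 : (r - 1) ^ 2 ≤ ‖y‖ ^ 2 := pow_le_pow_left₀ (by linarith) hy.2.1 2
  have hT : r ^ 2 / 4 ≤ ‖y‖ ^ 2 - F.xn 0 (y, t) ^ 2 := by nlinarith
  have hlow : ε * Real.exp (-(4 * L)) ≤ s * W γ (y, t) := by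
    rw [sW]
    gcongr
    nlinarith
  have k1 : 8 * (K + 1) * Real.exp (4 * L) ≤ r * (ε * L) := by
    rw [← div_le_iff₀ (by positivity)]; linarith
  have k2 : Real.exp (4 * L) * Real.exp (-(4 * L)) = 1 := by rw [← Real.exp_add]; simp
  have k3 : 8 * (K + 1) ≤ r * (ε * L) * Real.exp (-(4 * L)) := by
    have := mul_le_mul_of_nonneg_right k1 (Real.exp_pos (-(4 * L))).le
    rwa [mul_assoc, k2, mul_one] at this
  have k4 : 2 * γ * (ε * Real.exp (-(4 * L))) * (r ^ 2 / 4) ≤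
      2 * γ * (s * W γ (y, t)) * (‖y‖ ^ 2 - F.xn 0 (y, t) ^ 2) := by gcongr
  have k5 : 2 * γ * (ε * Real.exp (-(4 * L))) * (r ^ 2 / 4) =
      r * (ε * L) * Real.exp (-(4 * L)) / 2 := by rw [← hγr]; ring
  change s * (2 * γ * W γ (y, t) * (‖y‖ ^ 2 - F.xn 0 (y, t) ^ 2)) ≤ K at h4
  nlinarith

end Crest.Agent.N250.S5

end
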